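import Vale.Agent.P042.Core

/-!
Certified residue blocks for the exponent `121 / 160` in the square-difference problem.
-/

namespace Vale.Agent.P042

theorem block16 : Good 2 4 10 6 :=
  good_of_check (k := 2) (q := 4) (L := 6) {1, 2, 4, 7, 9, 10, 11, 12, 14, 15}
    (fun x => if x = 1 then 0 else if x = 2 then 3 else if x = 4 then 5 else if x = 7 then 3 else if x = 9 then 0 else if x = 10 then 1 else if x = 11 then 4 else if x = 12 then 5 else if x = 14 then 2 else 5)
    (by decide +kernel) (by decide +kernel) (by decide +kernel) (by decide +kernel) (by decide +kernel)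

theorem block3 : Good 2 3 (2 * 3 ^ 1) 2 :=
  good_of_squarefree (k := 2) (q := 3) (L := 2) {0, 1}
    (fun x => if x = 0 then 0 else 1)
    (by decide +kernel) (by decide +kernel) (by decide +kernel) (by decide +kernel) (by decide +kernel) (by decide +kernel)

theorem block7 : Good 2 7 (3 * 7 ^ 1) 3 :=
  good_of_squarefree (k := 2) (q := 7) (L := 3) {0, 1, 2}
    (fun x => if x = 0 then 0 else if x = 1 then 1 else 2)
    (by decide +kernel) (by decide +kernel) (by decide +kernel) (by decide +kernel) (by decide +kernel) (by decide +kernel)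

theorem block11 : Good 2 11 (4 * 11 ^ 1) 4 :=
  good_of_squarefree (k := 2) (q := 11) (L := 4) {0, 1, 4, 5}
    (fun x => if x = 0 then 0 else if x = 1 then 1 else if x = 4 then 2 else 3)
    (by decide +kernel) (by decide +kernel) (by decide +kernel) (by decide +kernel) (by decide +kernel) (by decide +kernel)

theorem block19 : Good 2 19 (5 * 19 ^ 1) 5 :=
  good_of_squarefree (k := 2) (q := 19) (L := 5) {0, 1, 6, 17, 7}
    (fun x => if x = 0 then 0 else if x = 1 then 1 else if x = 6 then 2 else if x = 17 then 3 else 4)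
    (by decide +kernel) (by decide +kernel) (by decide +kernel) (by decide +kernel) (by decide +kernel) (by decide +kernel)

theorem block31 : Good 2 31 (7 * 31 ^ 1) 7 :=
  good_of_squarefree (k := 2) (q := 31) (L := 7) {0, 1, 8, 5, 2, 9, 10}
    (fun x => if x = 0 then 0 else if x = 1 then 1 else if x = 8 then 2 else if x = 5 then 3 else if x = 2 then 4 else if x = 9 then 5 else 6)
    (by decide +kernel) (by decide +kernel) (by decide +kernel) (by decide +kernel) (by decide +kernel) (by decide +kernel)

theorem block43 : Good 2 43 (7 * 43 ^ 1) 7 :=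
  good_of_squarefree (k := 2) (q := 43) (L := 7) {0, 1, 10, 14, 11, 24, 25}
    (fun x => if x = 0 then 0 else if x = 1 then 1 else if x = 10 then 2 else if x = 14 then 3 else if x = 11 then 4 else if x = 24 then 5 else 6)
    (by decide +kernel) (by decide +kernel) (by decide +kernel) (by decide +kernel) (by decide +kernel) (by decide +kernel)

theorem block59 : Good 2 59 (9 * 59 ^ 1) 9 :=
  good_of_squarefree (k := 2) (q := 59) (L := 9) {0, 1, 20, 29, 27, 21, 46, 49, 36}
    (fun x => if x = 0 then 0 else if x = 1 then 1 else if x = 20 then 2 else if x = 29 then 3 else if x = 27 then 4 else if x = 21 then 5 else if x = 46 then 6 else if x = 49 then 7 else 8)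
    (by decide +kernel) (by decide +kernel) (by decide +kernel) (by decide +kernel) (by decide +kernel) (by decide +kernel)

theorem block71 : Good 2 71 (9 * 71 ^ 1) 9 :=
  good_of_squarefree (k := 2) (q := 71) (L := 9) {0, 1, 37, 20, 6, 30, 9, 49, 38}
    (fun x => if x = 0 then 0 else if x = 1 then 1 else if x = 37 then 2 else if x = 20 then 3 else if x = 6 then 4 else if x = 30 then 5 else if x = 9 then 6 else if x = 49 then 7 else 8)
    (by decide +kernel) (by decide +kernel) (by decide +kernel) (by decide +kernel) (by decide +kernel) (by decide +kernel)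

theorem block103 : Good 2 103 (11 * 103 ^ 1) 11 :=
  good_of_squarefree (k := 2) (q := 103) (L := 11) {0, 1, 29, 92, 2, 61, 17, 30, 93, 18, 19}
    (fun x => if x = 0 then 0 else if x = 1 then 1 else if x = 29 then 2 else if x = 92 then 3 else if x = 2 then 4 else if x = 61 then 5 else if x = 17 then 6 else if x = 30 then 7 else if x = 93 then 8 else if x = 18 then 9 else 10)
    (by decide +kernel) (by decide +kernel) (by decide +kernel) (by decide +kernel) (by decide +kernel) (by decide +kernel)

theorem block115 : Good 2 115 (12 * 115 ^ 1) 7 :=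
  good_of_squarefree (k := 2) (q := 115) (L := 7) {11, 30, 38, 39, 51, 54, 55, 67, 69, 77, 87, 93}
    (fun x => if x = 11 then 6 else if x = 30 then 1 else if x = 38 then 1 else if x = 39 then 4 else if x = 51 then 0 else if x = 54 then 3 else if x = 55 then 5 else if x = 67 then 5 else if x = 69 then 2 else if x = 77 then 4 else if x = 87 then 2 else 6)
    (by decide +kernel) (by decide +kernel) (by decide +kernel) (by decide +kernel) (by decide +kernel) (by decide +kernel)

theorem family : Fam 2 (4 ^ 16 * 3 ^ 42 * 7 ^ 26 * 11 ^ 21 * 19 ^ 18 * 31 ^ 15 * 43 ^ 15 * 59 ^ 13 * 71 ^ 13 * 103 ^ 12 * 115 ^ 15)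
    (10 ^ 16 * (2 * 3 ^ 1) ^ 42 * (3 * 7 ^ 1) ^ 26 * (4 * 11 ^ 1) ^ 21 * (5 * 19 ^ 1) ^ 18 * (7 * 31 ^ 1) ^ 15 * (7 * 43 ^ 1) ^ 15 * (9 * 59 ^ 1) ^ 13 * (9 * 71 ^ 1) ^ 13 * (11 * 103 ^ 1) ^ 12 * (12 * 115 ^ 1) ^ 15)
    (7 ^ 15) 11 :=
  (((((((((((block16.fam (by decide +kernel) (by decide +kernel) 16 (by decide +kernel))
    |>.crt (block3.fam (by decide +kernel) (by decide +kernel) 42 (by decide +kernel)) (by decide +kernel))
    |>.crt (block7.fam (by decide +kernel) (by decide +kernel) 26 (by decide +kernel)) (by decide +kernel))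
    |>.crt (block11.fam (by decide +kernel) (by decide +kernel) 21 (by decide +kernel)) (by decide +kernel))
    |>.crt (block19.fam (by decide +kernel) (by decide +kernel) 18 (by decide +kernel)) (by decide +kernel))
    |>.crt (block31.fam (by decide +kernel) (by decide +kernel) 15 (by decide +kernel)) (by decide +kernel))
    |>.crt (block43.fam (by decide +kernel) (by decide +kernel) 15 (by decide +kernel)) (by decide +kernel))
    |>.crt (block59.fam (by decide +kernel) (by decide +kernel) 13 (by decide +kernel)) (by decide +kernel))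
    |>.crt (block71.fam (by decide +kernel) (by decide +kernel) 13 (by decide +kernel)) (by decide +kernel))
    |>.crt (block103.fam (by decide +kernel) (by decide +kernel) 12 (by decide +kernel)) (by decide +kernel))
    |>.crt (block115.fam (by decide +kernel) (by decide +kernel) 15 (by decide +kernel)) (by decide +kernel))

theorem exponent_bound :
    ((4 ^ 16 * 3 ^ 42 * 7 ^ 26 * 11 ^ 21 * 19 ^ 18 * 31 ^ 15 * 43 ^ 15 * 59 ^ 13 * 71 ^ 13 * 103 ^ 12 * 115 ^ 15) ^ 2 * (7 ^ 15)) ^ 121 ≤
      (10 ^ 16 * (2 * 3 ^ 1) ^ 42 * (3 * 7 ^ 1) ^ 26 * (4 * 11 ^ 1) ^ 21 * (5 * 19 ^ 1) ^ 18 * (7 * 31 ^ 1) ^ 15 * (7 * 43 ^ 1) ^ 15 * (9 * 59 ^ 1) ^ 13 * (9 * 71 ^ 1) ^ 13 * (11 * 103 ^ 1) ^ 12 * (12 * 115 ^ 1) ^ 15) ^ 160 := by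
  decide +kernel

theorem two_le_base :
    2 ≤ (4 ^ 16 * 3 ^ 42 * 7 ^ 26 * 11 ^ 21 * 19 ^ 18 * 31 ^ 15 * 43 ^ 15 * 59 ^ 13 * 71 ^ 13 * 103 ^ 12 * 115 ^ 15) ^ 2 * (7 ^ 15) := by
  decide +kernel

end Vale.Agent.P042
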