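import Mathlib

/-!
Square-difference-free (more generally k-th-power-difference-free) sets from ranked residue sets.

`Good k q s L`: at least `s` residues modulo `q ^ k` carry a rank in `[0, L)` such that, whenever
two of them differ by a k-th power modulo `q ^ k`, the rank strictly increases.
-/

namespace Vale.Agent.P042

/-- At least `s` residues modulo `q ^ k` with a rank `< L` increasing along k-th power steps. -/
def Good (k q s L : ℕ) : Prop :=
  ∃ (T : Finset ℕ) (φ : ℕ → ℕ), s ≤ T.card ∧ (∀ x ∈ T, x < q ^ k) ∧ (∀ x ∈ T, φ x < L) ∧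
    ∀ x ∈ T, ∀ y ∈ T, x ≠ y → ∀ n : ℕ, x + n ^ k ≡ y [MOD q ^ k] → φ x < φ y

theorem Good.weaken {k q s L L' : ℕ} (h : Good k q s L) (hL : L ≤ L') : Good k q s L' := by
  obtain ⟨T, φ, hc, hb, hφ, hs⟩ := h
  exact ⟨T, φ, hc, hb, fun x hx => lt_of_lt_of_le (hφ x hx) hL, hs⟩

/-- A block given by explicit residues modulo `q ^ k`. -/
theorem good_of_check {k q s L : ℕ} (T : Finset ℕ) (φ : ℕ → ℕ) (hs : T.card = s) (hq : 0 < q)
    (hb : ∀ x ∈ T, x < q ^ k) (hφ : ∀ x ∈ T, φ x < L)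
    (hc : ∀ n ∈ Finset.range (q ^ k), ∀ x ∈ T,
      (x + n ^ k) % q ^ k ∈ T → (x + n ^ k) % q ^ k ≠ x → φ x < φ ((x + n ^ k) % q ^ k)) :
    Good k q s L := by
  subst hs
  refine ⟨T, φ, le_rfl, hb, hφ, ?_⟩
  intro x hx y hy hne n hn
  have hM : 0 < q ^ k := pow_pos hq k
  have h1 : (x + (n % q ^ k) ^ k) % q ^ k = y := by
    have h2 : x + (n % q ^ k) ^ k ≡ y [MOD q ^ k] :=
      (Nat.ModEq.add_left x ((Nat.mod_modEq n (q ^ k)).pow k)).trans hn
    have h3 : (x + (n % q ^ k) ^ k) % q ^ k = y % q ^ k := h2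
    rwa [Nat.mod_eq_of_lt (hb y hy)] at h3
  have h4 := hc (n % q ^ k) (Finset.mem_range.2 (Nat.mod_lt _ hM)) x hx
  rw [h1] at h4
  exact h4 hy (Ne.symm hne)

/-- A ranked residue set modulo a squarefree `q` lifts to a block modulo `q ^ k`. -/
theorem good_of_squarefree {k q s L : ℕ} (S : Finset ℕ) (φ : ℕ → ℕ) (hs : S.card = s) (hk : k ≠ 0)
    (hq : Squarefree q) (hb : ∀ e ∈ S, e < q) (hφ : ∀ e ∈ S, φ e < L)
    (hc : ∀ n ∈ Finset.range q, ∀ e ∈ S,
      (e + n ^ k) % q ∈ S → (e + n ^ k) % q ≠ e → φ e < φ ((e + n ^ k) % q)) :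
    Good k q (s * q ^ (k - 1)) L := by
  subst hs
  have hq0 : 0 < q := Nat.pos_of_ne_zero hq.ne_zero
  have hk1 : q ^ k = q * q ^ (k - 1) := by
    rw [← pow_succ']
    congr 1
    omega
  refine ⟨(S ×ˢ Finset.range (q ^ (k - 1))).image (fun p => p.1 + q * p.2),
    fun x => φ (x % q), ?_, ?_, ?_, ?_⟩
  · rw [Finset.card_image_of_injOn, Finset.card_product, Finset.card_range]
    rintro ⟨e, u⟩ hp ⟨e', u'⟩ hp' heq
    have hm := hb e (Finset.mem_product.1 hp).1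
    have hm' := hb e' (Finset.mem_product.1 hp').1
    simp only at heq
    have he : e = e' := by
      have := congrArg (fun z => z % q) heq
      simpa [Nat.mod_eq_of_lt hm, Nat.mod_eq_of_lt hm'] using this
    subst he
    have : q * u = q * u' := by omega
    simp [Nat.eq_of_mul_eq_mul_left hq0 this]
  all_goals simp only [Finset.mem_image, Finset.mem_product, Finset.mem_range, Prod.exists]
  · rintro x ⟨e, u, ⟨he, hu⟩, rfl⟩
    have := hb e he
    rw [hk1]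
    calc e + q * u < q * (u + 1) := by rw [Nat.mul_add, Nat.mul_one]; omega
      _ ≤ q * q ^ (k - 1) := Nat.mul_le_mul_left q hu
  · rintro x ⟨e, u, ⟨he, hu⟩, rfl⟩
    simpa [Nat.mod_eq_of_lt (hb e he)] using hφ e he
  · rintro x ⟨e, u, ⟨he, hu⟩, rfl⟩ y ⟨e', u', ⟨he', hu'⟩, rfl⟩ hne n hn
    have hlt : e + q * u < q ^ k ∧ e' + q * u' < q ^ k := by
      have h1 := hb e he
      have h2 := hb e' he'
      rw [hk1]
      constructor
      · calc e + q * u < q * (u + 1) := by rw [Nat.mul_add, Nat.mul_one]; omega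
          _ ≤ q * q ^ (k - 1) := Nat.mul_le_mul_left q hu
      · calc e' + q * u' < q * (u' + 1) := by rw [Nat.mul_add, Nat.mul_one]; omega
          _ ≤ q * q ^ (k - 1) := Nat.mul_le_mul_left q hu'
    simp only [Nat.add_mul_mod_self_left, Nat.mod_eq_of_lt (hb e he), Nat.mod_eq_of_lt (hb e' he')]
    have hn' : e + q * u + n ^ k ≡ e' + q * u' [MOD q] :=
      hn.of_dvd (dvd_pow_self q hk)
    have h0 : e + n ^ k ≡ e' [MOD q] := by
      unfold Nat.ModEq at hn' ⊢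
      rw [show e + q * u + n ^ k = (e + n ^ k) + q * u by ring] at hn'
      simpa [Nat.add_mul_mod_self_left] using hn'
    have h1 : (e + (n % q) ^ k) % q = e' := by
      have h2 : e + (n % q) ^ k ≡ e' [MOD q] :=
        (Nat.ModEq.add_left e ((Nat.mod_modEq n q).pow k)).trans h0
      have h3 : (e + (n % q) ^ k) % q = e' % q := h2
      rwa [Nat.mod_eq_of_lt (hb e' he')] at h3
    by_cases hee : e = e'
    · exfalso
      subst hee
      have h5 : n ^ k ≡ 0 [MOD q] := by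
        have h6 : e + n ^ k ≡ e + 0 [MOD q] := by simpa using h0
        exact Nat.ModEq.add_left_cancel' e h6
      have h7 : q ∣ n := (hq.dvd_pow_iff_dvd hk).1 (Nat.modEq_zero_iff_dvd.1 h5)
      have h8 : q ^ k ∣ n ^ k := pow_dvd_pow_of_dvd h7 k
      have h9 : e + q * u + n ^ k ≡ e + q * u + 0 [MOD q ^ k] :=
        Nat.ModEq.add_left _ (Nat.modEq_zero_iff_dvd.2 h8)
      have h10 : e + q * u ≡ e + q * u' [MOD q ^ k] := by
        simpa using h9.symm.trans hn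
      exact hne (h10.eq_of_lt_of_lt hlt.1 hlt.2)
    · have h4 := hc (n % q) (Finset.mem_range.2 (Nat.mod_lt _ hq0)) e he
      rw [h1] at h4
      exact h4 he' (Ne.symm hee)

/-- Lexicographic product: two consecutive groups of digits. -/
theorem Good.lex {k q₁ s₁ L₁ q₂ s₂ L₂ : ℕ}
    (hq₁ : 0 < q₁) (h₁ : Good k q₁ s₁ L₁) (h₂ : Good k q₂ s₂ L₂)
    (hroot : ∀ n : ℕ, q₁ ^ k ∣ n ^ k → q₁ ∣ n) :
    Good k (q₁ * q₂) (s₁ * s₂) (L₁ * L₂) := by
  obtain ⟨T₁, φ₁, hc₁, hb₁, hφ₁, hs₁⟩ := h₁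
  obtain ⟨T₂, φ₂, hc₂, hb₂, hφ₂, hs₂⟩ := h₂
  have hM : 0 < q₁ ^ k := pow_pos hq₁ k
  set M := q₁ ^ k with hMdef
  have key : ∀ a ∈ T₁, ∀ b : ℕ, (a + M * b) % M = a ∧ (a + M * b) / M = b := by
    intro a ha b
    constructor
    · simp [Nat.mod_eq_of_lt (hb₁ a ha)]
    · rw [Nat.add_mul_div_left _ _ hM, Nat.div_eq_of_lt (hb₁ a ha), Nat.zero_add]
  refine ⟨(T₁ ×ˢ T₂).image (fun p => p.1 + M * p.2),
    fun x => φ₁ (x % M) * L₂ + φ₂ (x / M), ?_, ?_, ?_, ?_⟩
  · rw [Finset.card_image_of_injOn, Finset.card_product]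
    · exact Nat.mul_le_mul hc₁ hc₂
    rintro ⟨a, b⟩ hp ⟨a', b'⟩ hp' heq
    simp only at heq
    have h1 := key a (Finset.mem_product.1 hp).1 b
    have h2 := key a' (Finset.mem_product.1 hp').1 b'
    rw [heq] at h1
    simp [← h1.1, ← h1.2, h2.1, h2.2]
  all_goals simp only [Finset.mem_image, Finset.mem_product, Prod.exists]
  · rintro x ⟨a, b, ⟨ha, hb⟩, rfl⟩
    rw [mul_pow, ← hMdef]
    calc a + M * b < M * (b + 1) := by
          have := hb₁ a ha
          rw [Nat.mul_add, Nat.mul_one]; omega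
      _ ≤ M * q₂ ^ k := Nat.mul_le_mul_left M (hb₂ b hb)
  · rintro x ⟨a, b, ⟨ha, hb⟩, rfl⟩
    rw [(key a ha b).1, (key a ha b).2]
    calc φ₁ a * L₂ + φ₂ b < φ₁ a * L₂ + L₂ := Nat.add_lt_add_left (hφ₂ b hb) _
      _ = (φ₁ a + 1) * L₂ := by ring
      _ ≤ L₁ * L₂ := Nat.mul_le_mul_right L₂ (hφ₁ a ha)
  · rintro x ⟨a, b, ⟨ha, hb⟩, rfl⟩ y ⟨a', b', ⟨ha', hb'⟩, rfl⟩ hne n hn
    rw [(key a ha b).1, (key a ha b).2, (key a' ha' b').1, (key a' ha' b').2]
    rw [mul_pow, ← hMdef] at hn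
    have hn₁ : a + n ^ k ≡ a' [MOD M] := by
      have h := hn.of_dvd (Dvd.intro _ rfl)
      unfold Nat.ModEq at h ⊢
      rw [show a + M * b + n ^ k = (a + n ^ k) + M * b by ring] at h
      simpa [Nat.add_mul_mod_self_left] using h
    by_cases haa : a = a'
    · subst haa
      have h5 : n ^ k ≡ 0 [MOD M] := by
        have h6 : a + n ^ k ≡ a + 0 [MOD M] := by simpa using hn₁
        exact Nat.ModEq.add_left_cancel' a h6
      obtain ⟨m, rfl⟩ := hroot n (Nat.modEq_zero_iff_dvd.1 h5)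
      have hn₂ : b + m ^ k ≡ b' [MOD q₂ ^ k] := by
        have h7 : M * (b + m ^ k) + a ≡ M * b' + a [MOD M * q₂ ^ k] := by
          have e1 : M * (b + m ^ k) + a = a + M * b + (q₁ * m) ^ k := by
            rw [mul_pow, ← hMdef]; ring
          have e2 : M * b' + a = a + M * b' := by ring
          rw [e1, e2]
          exact hn
        exact Nat.ModEq.mul_left_cancel' (Nat.pos_iff_ne_zero.1 hM)
          (Nat.ModEq.add_right_cancel' a h7)
      have hbb : b ≠ b' := fun h => hne (by rw [h])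
      have := hs₂ b hb b' hb' hbb m hn₂
      omega
    · have h8 := hs₁ a ha a' ha' haa n hn₁
      calc φ₁ a * L₂ + φ₂ b < φ₁ a * L₂ + L₂ := Nat.add_lt_add_left (hφ₂ b hb) _
        _ = (φ₁ a + 1) * L₂ := by ring
        _ ≤ φ₁ a' * L₂ := Nat.mul_le_mul_right L₂ h8
        _ ≤ φ₁ a' * L₂ + φ₂ b' := Nat.le_add_right _ _

theorem good_one (k : ℕ) : Good k 1 1 1 := by
  refine ⟨{0}, fun _ => 0, by simp, ?_, by simp, ?_⟩
  · simp
  · simp

theorem Good.pow {k q s L : ℕ} (hk : k ≠ 0) (hq : 0 < q) (h : Good k q s L) :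
    ∀ n : ℕ, Good k (q ^ n) (s ^ n) (L ^ n)
  | 0 => by simpa using good_one k
  | n + 1 => by
      rw [pow_succ', pow_succ', pow_succ']
      exact Good.lex hq h (Good.pow hk hq h n)
        (fun m hm => (Nat.pow_dvd_pow_iff hk).1 hm)

/-- Chinese remainder product; the ranks add. -/
theorem Good.crt {k a s L b t L' : ℕ} (hab : Nat.Coprime a b) (ha : 0 < a) (hb : 0 < b)
    (h₁ : Good k a s L) (h₂ : Good k b t L') : Good k (a * b) (s * t) (L + L') := by
  obtain ⟨T₁, φ₁, hc₁, hb₁, hφ₁, hs₁⟩ := h₁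
  obtain ⟨T₂, φ₂, hc₂, hb₂, hφ₂, hs₂⟩ := h₂
  have hco : Nat.Coprime (a ^ k) (b ^ k) := Nat.Coprime.pow k k hab
  set A := a ^ k
  set B := b ^ k
  have hA : A ≠ 0 := (pow_pos ha k).ne'
  have hB : B ≠ 0 := (pow_pos hb k).ne'
  let g : ℕ × ℕ → ℕ := fun p => Nat.chineseRemainder hco p.1 p.2
  have key : ∀ u ∈ T₁, ∀ v ∈ T₂, g (u, v) % A = u ∧ g (u, v) % B = v := by
    intro u hu v hv
    have h := (Nat.chineseRemainder hco u v).2
    exact ⟨Eq.trans h.1 (Nat.mod_eq_of_lt (hb₁ u hu)), Eq.trans h.2 (Nat.mod_eq_of_lt (hb₂ v hv))⟩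
  refine ⟨(T₁ ×ˢ T₂).image g, fun x => φ₁ (x % A) + φ₂ (x % B), ?_, ?_, ?_, ?_⟩
  · rw [Finset.card_image_of_injOn, Finset.card_product]
    · exact Nat.mul_le_mul hc₁ hc₂
    rintro ⟨u, v⟩ hp ⟨u', v'⟩ hp' heq
    have h1 := key u (Finset.mem_product.1 hp).1 v (Finset.mem_product.1 hp).2
    have h2 := key u' (Finset.mem_product.1 hp').1 v' (Finset.mem_product.1 hp').2
    rw [heq] at h1
    simp [← h1.1, ← h1.2, h2.1, h2.2]
  all_goals simp only [Finset.mem_image, Finset.mem_product, Prod.exists]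
  · rintro x ⟨u, v, -, rfl⟩
    rw [mul_pow]
    exact Nat.chineseRemainder_lt_mul hco u v hA hB
  · rintro x ⟨u, v, ⟨hu, hv⟩, rfl⟩
    rw [(key u hu v hv).1, (key u hu v hv).2]
    exact Nat.add_lt_add (hφ₁ u hu) (hφ₂ v hv)
  · rintro x ⟨u, v, ⟨hu, hv⟩, rfl⟩ y ⟨u', v', ⟨hu', hv'⟩, rfl⟩ hne n hn
    rw [(key u hu v hv).1, (key u hu v hv).2, (key u' hu' v' hv').1, (key u' hu' v' hv').2]
    rw [mul_pow] at hn
    have hn₁ : u + n ^ k ≡ u' [MOD A] := by
      have h1 : g (u, v) ≡ u [MOD A] := (Nat.chineseRemainder hco u v).2.1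
      have h2 : g (u', v') ≡ u' [MOD A] := (Nat.chineseRemainder hco u' v').2.1
      exact ((h1.add_right _).symm.trans (hn.of_dvd (Dvd.intro _ rfl))).trans h2
    have hn₂ : v + n ^ k ≡ v' [MOD B] := by
      have h1 : g (u, v) ≡ v [MOD B] := (Nat.chineseRemainder hco u v).2.2
      have h2 : g (u', v') ≡ v' [MOD B] := (Nat.chineseRemainder hco u' v').2.2
      exact ((h1.add_right _).symm.trans (hn.of_dvd (Dvd.intro_left _ rfl))).trans h2
    by_cases huu : u = u'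
    · subst huu
      have hvv : v ≠ v' := fun h => hne (by rw [h])
      have := hs₂ v hv v' hv' hvv n hn₂
      omega
    · have h1 := hs₁ u hu u' hu' huu n hn₁
      by_cases hvv : v = v'
      · subst hvv; omega
      · have := hs₂ v hv v' hv' hvv n hn₂
        omega

/-- Turning a block into a set of integers without k-th power differences: the position of a
residue on the line is opposite to its rank. -/
theorem Good.toSet {k q s L : ℕ} (h : Good k q s L) (hq : 0 < q) :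
    ∃ A : Finset ℕ, A ⊆ Finset.Icc 1 (q ^ k * L) ∧ s ≤ A.card ∧
      ∀ x ∈ A, ∀ y ∈ A, ∀ n : ℕ, 1 ≤ n → x + n ^ k ≠ y := by
  obtain ⟨T, φ, hc, hb, hφ, hs⟩ := h
  have hM : 0 < q ^ k := pow_pos hq k
  set M := q ^ k
  let g : ℕ → ℕ := fun r => r + M * (L - 1 - φ r) + 1
  refine ⟨T.image g, ?_, ?_, ?_⟩
  · intro x hx
    obtain ⟨r, hr, rfl⟩ := Finset.mem_image.1 hx
    have h1 := hb r hr
    have h2 := hφ r hr
    refine Finset.mem_Icc.2 ⟨Nat.le_add_left 1 _, ?_⟩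
    calc g r ≤ M * (L - 1 - φ r + 1) := by
          simp only [g, Nat.mul_add, Nat.mul_one]; omega
      _ ≤ M * L := Nat.mul_le_mul_left M (by omega)
  · rw [Finset.card_image_of_injOn]
    · exact hc
    intro r hr r' hr' heq
    have h1 : r + M * (L - 1 - φ r) = r' + M * (L - 1 - φ r') := by
      simp only [g] at heq; omega
    have := congrArg (fun z => z % M) h1
    simpa [Nat.mod_eq_of_lt (hb r hr), Nat.mod_eq_of_lt (hb r' hr')] using this
  · simp only [Finset.mem_image]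
    rintro x ⟨r, hr, rfl⟩ y ⟨r', hr', rfl⟩ n hn heq
    have hpos : 1 ≤ n ^ k := Nat.one_le_pow _ _ hn
    have h1 : r + M * (L - 1 - φ r) + n ^ k = r' + M * (L - 1 - φ r') := by
      simp only [g] at heq; omega
    by_cases hrr : r = r'
    · subst hrr; omega
    have hmod : r + n ^ k ≡ r' [MOD M] := by
      have := congrArg (fun z => z % M) h1
      unfold Nat.ModEq
      rw [show r + M * (L - 1 - φ r) + n ^ k = (r + n ^ k) + M * (L - 1 - φ r) by ring] at this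
      simpa [Nat.add_mul_mod_self_left] using this
    have hlt := hs r hr r' hr' hrr n hmod
    have h2 := hφ r' hr'
    have h3 : L - 1 - φ r' + 1 ≤ L - 1 - φ r := by omega
    have h4 := Nat.mul_le_mul_left M h3
    rw [Nat.mul_add, Nat.mul_one] at h4
    have := hb r' hr'
    omega

/-- `Fam k Q S H c`: blocks of every multiplicity `n`, with rank range at most `c * H ^ n`. -/
def Fam (k Q S H c : ℕ) : Prop :=
  0 < Q ∧ ∀ n : ℕ, Good k (Q ^ n) (S ^ n) (c * H ^ n)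

theorem Good.fam {k q s L H : ℕ} (hk : k ≠ 0) (hq : 0 < q) (h : Good k q s L) (a : ℕ)
    (hH : L ^ a ≤ H) : Fam k (q ^ a) (s ^ a) H 1 := by
  refine ⟨pow_pos hq a, fun n => ?_⟩
  have h1 := (h.pow hk hq) (a * n)
  rw [pow_mul, pow_mul, pow_mul] at h1
  exact h1.weaken (by rw [one_mul]; exact Nat.pow_le_pow_left hH n)

theorem Fam.crt {k Q S H c Q' S' c' : ℕ} (h : Fam k Q S H c) (h' : Fam k Q' S' H c')
    (hco : Nat.Coprime Q Q') : Fam k (Q * Q') (S * S') H (c + c') := by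
  refine ⟨Nat.mul_pos h.1 h'.1, fun n => ?_⟩
  have := Good.crt (Nat.Coprime.pow n n hco) (pow_pos h.1 n) (pow_pos h'.1 n) (h.2 n) (h'.2 n)
  rw [mul_pow, mul_pow, Nat.add_mul]
  exact this

/-- The exponent obtained from a family: `(Q ^ k * H) ^ a ≤ S ^ b` gives exponent `a / b`. -/
theorem Fam.exponent {k Q S H c a b : ℕ} (h : Fam k Q S H c) (hb : 0 < b) (hc : 0 < c)
    (hB : 2 ≤ Q ^ k * H) (hexp : (Q ^ k * H) ^ a ≤ S ^ b) :
    ∃ C : ℝ, 0 < C ∧ ∀ N : ℕ, 1 ≤ N → ∃ A : Finset ℕ, A ⊆ Finset.Icc 1 N ∧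
      (∀ x ∈ A, ∀ y ∈ A, ∀ n : ℕ, 1 ≤ n → x + n ^ k ≠ y) ∧
      C * (N : ℝ) ^ ((a : ℝ) / b) ≤ (A.card : ℝ) := by
  set B := Q ^ k * H with hBdef
  set θ : ℝ := (a : ℝ) / b with hθdef
  have hθ : 0 ≤ θ := by positivity
  have hcB : (0 : ℝ) < ((c * B : ℕ) : ℝ) := by
    exact_mod_cast Nat.mul_pos hc (by omega)
  have hpos : (0 : ℝ) < ((c * B : ℕ) : ℝ) ^ θ := Real.rpow_pos_of_pos hcB θ
  have hS : (B : ℝ) ^ θ ≤ (S : ℝ) := by
    have h1 : ((B : ℝ) ^ θ) ^ b ≤ (S : ℝ) ^ b := by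
      rw [← Real.rpow_mul_natCast (Nat.cast_nonneg B), hθdef, div_mul_cancel₀, Real.rpow_natCast]
      · exact_mod_cast hexp
      · exact_mod_cast hb.ne'
    exact le_of_pow_le_pow_left₀ hb.ne' (Nat.cast_nonneg S) h1
  refine ⟨(((c * B : ℕ) : ℝ) ^ θ)⁻¹, inv_pos.2 hpos, fun N hN => ?_⟩
  by_cases hNc : N < c
  · refine ⟨{1}, ?_, ?_, ?_⟩
    · simpa using hN
    · intro x hx y hy n hn
      rw [Finset.mem_singleton] at hx hy
      have := Nat.one_le_pow k n hn
      omega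
    · rw [inv_mul_le_iff₀ hpos]
      simp only [Finset.card_singleton, Nat.cast_one, mul_one]
      refine Real.rpow_le_rpow (Nat.cast_nonneg N) ?_ hθ
      have : N ≤ c * B := le_trans hNc.le (Nat.le_mul_of_pos_right c (by omega))
      exact_mod_cast this
  · rw [not_lt] at hNc
    set n := Nat.log B (N / c) with hn
    have h1 : c * B ^ n ≤ N := by
      have hne : N / c ≠ 0 := (Nat.div_pos hNc hc).ne'
      have h2 := Nat.pow_log_le_self B hne
      calc c * B ^ n ≤ c * (N / c) := Nat.mul_le_mul_left c h2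
        _ ≤ N := Nat.mul_div_le N c
    have h2 : N ≤ c * B * B ^ n := by
      have h3 := Nat.lt_pow_succ_log_self (b := B) (by omega) (N / c)
      rw [← hn] at h3
      have h4 : N < c * B ^ (n + 1) := by
        have := (Nat.div_lt_iff_lt_mul hc).1 h3
        rwa [Nat.mul_comm]
      rw [pow_succ'] at h4
      rw [Nat.mul_assoc]
      exact h4.le
    obtain ⟨A, hA, hcard, hfree⟩ := (h.2 n).toSet (pow_pos h.1 n)
    refine ⟨A, hA.trans (Finset.Icc_subset_Icc_right ?_), hfree, ?_⟩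
    · calc (Q ^ n) ^ k * (c * H ^ n) = c * B ^ n := by rw [hBdef]; ring
        _ ≤ N := h1
    · rw [inv_mul_le_iff₀ hpos]
      calc (N : ℝ) ^ θ ≤ ((c * B * B ^ n : ℕ) : ℝ) ^ θ :=
            Real.rpow_le_rpow (Nat.cast_nonneg N) (by exact_mod_cast h2) hθ
        _ = ((c * B : ℕ) : ℝ) ^ θ * ((B : ℝ) ^ θ) ^ n := by
            rw [Nat.cast_mul, Real.mul_rpow (Nat.cast_nonneg _) (Nat.cast_nonneg _), Nat.cast_pow,
              ← Real.rpow_natCast_mul (Nat.cast_nonneg B), mul_comm (n : ℝ) θ,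
              Real.rpow_mul_natCast (Nat.cast_nonneg B)]
        _ ≤ ((c * B : ℕ) : ℝ) ^ θ * (S : ℝ) ^ n := by gcongr
        _ ≤ ((c * B : ℕ) : ℝ) ^ θ * (A.card : ℝ) := by
            gcongr
            exact_mod_cast hcard

end Vale.Agent.P042
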